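import Vale.Agent.P181.BL.Defs
import Vale.Agent.P181.TL.H214.UpB

set_option autoImplicit false

/-!
# P181, BL, rows B7 and B8 (helper368): cutting the top rows
-/

open MvPolynomial

namespace Vale.Agent.P181.BL.H368

open Vale.Agent.P181.T4 (HW rowOp rowOp_apply)
open Vale.Agent.P181.H280 (plethMult)
open Vale.Agent.P181.SZ
open Vale.Agent.P181.TL.H214 (cf cf_mem coeff_cf ins ins_rs rs r0 upB)
open Vale.Agent.P181.BL

/-- Cutting the top row, for any shape. -/
lemma cut (k a : ℕ) (mu : Fin (k + 1) → ℕ) :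
    Module.finrank ℂ (HW (k + 1) (Fin a) mu) ≤
      (mu 0 + 1) ^ a * Module.finrank ℂ (HW k (Fin a) fun i => mu i.succ) := by
  classical
  let L : HW (k + 1) (Fin a) mu →ₗ[ℂ]
      ((Fin a → Fin (mu 0 + 1)) → HW k (Fin a) fun i => mu i.succ) :=
    LinearMap.pi fun d => ((cf fun j => (d j : ℕ)).comp
      (HW (k + 1) (Fin a) mu).subtype).codRestrict _ fun f => cf_mem f.2 fun j => (d j : ℕ)
  have hL : Function.Injective L := by
    rw [← LinearMap.ker_eq_bot, LinearMap.ker_eq_bot']
    rintro ⟨f, hf⟩ h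
    apply Subtype.ext
    change f = 0
    apply MvPolynomial.ext
    intro v
    rw [coeff_zero]
    by_contra hv
    have hb : ∀ j, v (0, j) < mu 0 + 1 := fun j =>
      Nat.lt_succ_of_le ((Finset.single_le_sum (f := fun j => v (0, j))
        (fun _ _ => Nat.zero_le _) (Finset.mem_univ j)).trans (hf.1 v hv 0).le)
    have h1 : cf (fun j => v (0, j)) f = 0 :=
      congrArg Subtype.val (congrFun h fun j => ⟨v (0, j), hb j⟩)
    have h2 := coeff_cf (fun j => v (0, j)) f (rs v)
    have h3 : ins (fun j => v (0, j)) (rs v) = v := ins_rs v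
    rw [h1, coeff_zero, h3] at h2
    exact hv h2.symm
  have h := LinearMap.finrank_le_finrank_of_injective hL
  rw [Module.finrank_pi_fintype, Finset.sum_const, Finset.card_univ, smul_eq_mul,
    Fintype.card_fun, Fintype.card_fin, Fintype.card_fin] at h
  exact h

/-- **(B7)** -/
theorem cutR : CutR := by
  intro k a x tau
  exact cut k a (Fin.cons x tau)

/-- Cutting the `r` top rows. -/
lemma cut_iter (k a N : ℕ) : ∀ (r : ℕ) (mu : Fin (k + r) → ℕ), (∀ i, mu i ≤ N) →
    Module.finrank ℂ (HW (k + r) (Fin a) mu) ≤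
      (N + 1) ^ (a * r) *
        Module.finrank ℂ (HW k (Fin a) fun i => mu ⟨(i : ℕ) + r, by omega⟩) := by
  intro r
  induction r with
  | zero =>
    intro mu _
    rw [Nat.mul_zero, pow_zero, one_mul]
    exact le_rfl
  | succ r ih =>
    intro mu hmu
    have h1 := cut (k + r) a mu
    have h2 := ih (fun i => mu i.succ) fun i => hmu i.succ
    have h3 : (mu 0 + 1) ^ a ≤ (N + 1) ^ a := Nat.pow_le_pow_left (Nat.succ_le_succ (hmu 0)) a
    refine h1.trans ((Nat.mul_le_mul h3 h2).trans (le_of_eq ?_))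
    rw [← mul_assoc, ← pow_add]
    have h4 : a + a * r = a * (r + 1) := by ring
    rw [h4]
    rfl

/-- **(B8)** -/
theorem upR : UpR := by
  intro a b k r lam hlam
  have h1 := upB a b (k + 1 + r) lam
  have hN : ∀ i, (fun i : Fin (k + 1 + r) => lam i.succ.succ) i ≤ a * b := by
    intro i
    rw [← hlam]
    exact Finset.single_le_sum (f := lam) (fun _ _ => Nat.zero_le _) (Finset.mem_univ _)
  have h2 := cut_iter (k + 1) a (a * b) r (fun i => lam i.succ.succ) hN
  rw [mul_assoc]
  exact h1.trans (Nat.mul_le_mul le_rfl h2)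

end Vale.Agent.P181.BL.H368
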